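import Vale.Agent.P236K.Spec
import Vale.Agent.P236H.Alg
import Vale.Agent.P257.H254.LetterWt

/-!
# P236, task BNE: the cocycles `b_j` are not coboundaries
-/

namespace Vale.Agent.P236K

open Vale.Agent.P251 Vale.Agent.P257 Vale.Agent.P257.H93 MvPolynomial

/-- The differential commutes with the weight components. -/
theorem comp_dP {p : ℕ} [Fact p.Prime] {n : ℕ} (w : ℤ) (e : CobP p n) :
    weightedHomogeneousComponent (wX p (n + 1)) w (dP n e) =
      dP n (weightedHomogeneousComponent (wX p n) w e) := by
  classical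
  induction e using MvPolynomial.induction_on' with
  | add a b ha hb => simp only [map_add, ha, hb]
  | monomial μ c =>
    have h := isWeightedHomogeneous_monomial (wX p n) μ c rfl
    have h' : IsWeightedHomogeneous (wX p (n + 1)) (dP n (monomial μ c)) _ := IsWtP.dP h
    by_cases e : w = Finsupp.weight (wX p n) μ
    · subst e
      rw [h.weightedHomogeneousComponent_same, h'.weightedHomogeneousComponent_same]
    · rw [h.weightedHomogeneousComponent_ne _ e, h'.weightedHomogeneousComponent_ne _ e, map_zero]

/-- task BNE -/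
theorem bne (j : ℕ) : BNe j := by
  rintro ⟨e, he⟩
  have h : IsWeightedHomogeneous (wX 3 2) (H134.bP 3 1 j) (2 * 3 ^ (j + 1)) := by
    have := H254.isWtP_bP (p := 3) 1 j
    rwa [show ((3 : ℕ) : ℤ) * ((((3 : ℕ) : ℤ) ^ 1 - 1) * ((3 : ℕ) : ℤ) ^ j) = 2 * 3 ^ (j + 1) by
      push_cast; ring] at this
  refine P236H.bP_ne j (weightedHomogeneousComponent_isWeightedHomogeneous _ e) (.inl rfl) ?_
  rw [← comp_dP, he, h.weightedHomogeneousComponent_same, one_smul]

end Vale.Agent.P236K
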