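import Vale.Agent.P236L.Defs
import Vale.Agent.P257.H93.FP
import Vale.Agent.P257.H134.Cochains

/-!
# P236, `j = 3`: the interfaces between the algebra, the engine and the topology

* `Co s T`: cochains of filtration `s` and weight `2 T`; `IsZ`, `IsB`: cocycles and coboundaries
  modulo `3`.
* `Tab`: numerical tables; `Real τ`: the tables describe `H^* (Cob Laz / 3)`.
* `EngOut j`, `EngOut3 j`, `EngOut1`: the output of the spectral sequence computation.
-/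

open CategoryTheory MonoidalCategory Limits Pretriangulated

universe v u

namespace Vale.Agent.P236K

open Vale.Agent.P251 Vale.Agent.P251.T Vale.Agent.P251.F Vale.Agent.P251.I
  Vale.Agent.P251.M Vale.Agent.P257.H314 Vale.Agent.P257.H93 Vale.Agent.P236L
open Vale.Agent.P251.S hiding IC

/-- Cochains of filtration `s` and weight `2 T`. -/
abbrev Co (s T : ℕ) : Type := Cob.wt Laz s (2 * (T : ℤ))

/-- Cocycles modulo `3`. -/
def IsZ {s T : ℕ} (z : Co s T) : Prop := Cob.d s z.1 ∈ IC 3 1 (s + 1)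

/-- Coboundaries modulo `3`. -/
def IsB : ∀ {s T : ℕ}, Co s T → Prop
  | 0, _, z => z.1 ∈ IC 3 1 0
  | s + 1, T, z => ∃ y : Co s T, z.1 - Cob.d s y.1 ∈ IC 3 1 (s + 1)

/-- The cup product. -/
noncomputable def cupT {a s s' U T T' : ℕ} (h : a + s = s') (hT : U + T = T')
    (x : Co a U) (z : Co s T) : Co s' T' :=
  cupw h (by rw [← hT]; push_cast; ring) x z

/-- The unit. -/
noncomputable def oneC : Co 0 0 := ⟨1, by
  have h : 2 * ((0 : ℕ) : ℤ) = 0 := by simp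
  rw [Cob.mem_wt, h]
  exact Cob.isWt_one⟩

/-- Numerical tables. Entries are `0, 1, 2`; any other value means that the entry is unknown. -/
structure Tab where
  /-- the cells `(s, T)` in which the cohomology is known -/
  reg : ℕ → ℕ → Bool
  /-- the dimension of the cohomology -/
  dim : ℕ → ℕ → ℕ
  /-- filtration of the multiplier number `k` -/
  ms : ℕ → ℕ
  /-- degree of the multiplier number `k` -/
  mT : ℕ → ℕ
  /-- `mul k s T i l`: coordinate `l` of the product of the multiplier `k` with the basis element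
  `i` of the cell `(s, T)` -/
  mul : ℕ → ℕ → ℕ → ℕ → ℕ → ℕ
  /-- `bok s T i l`: coordinate `l` of the Bockstein of the basis element `i` of `(s, T)` -/
  bok : ℕ → ℕ → ℕ → ℕ → ℕ
  /-- the number of the basis element of the cell `(2, 3 ^ (j + 1))` which reduces to `± b_j` -/
  lead : ℕ → ℕ

/-- The tables describe the cohomology of `Cob Laz / 3`. -/
structure Real (τ : Tab) where
  /-- coordinates -/
  co : ∀ s T : ℕ, Co s T →+ (ℕ → ZMod 3)
  co_ge : ∀ (s T : ℕ) (z : Co s T) (i : ℕ), τ.dim s T ≤ i → co s T z i = 0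
  ker : ∀ (s T : ℕ), τ.reg s T = true → ∀ z : Co s T, IsZ z → (co s T z = 0 ↔ IsB z)
  surj : ∀ (s T i : ℕ), τ.reg s T = true → i < τ.dim s T →
    ∃ z : Co s T, IsZ z ∧ co s T z = Pi.single i 1
  reg_zero : τ.reg 0 0 = true
  co_one : co 0 0 oneC = Pi.single 0 1
  /-- the multipliers -/
  mu : ∀ k : ℕ, Co (τ.ms k) (τ.mT k)
  mu_Z : ∀ k : ℕ, IsZ (mu k)
  ms_zero : τ.ms 0 = 0
  mT_zero : τ.mT 0 = 1
  mu_zero : ∀ (h : τ.ms 0 + 0 = 0) (hT : τ.mT 0 + 0 = 1),
    (cupT h hT (mu 0) oneC).1 = MvPolynomial.C (Laz.v 3 1)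
  mul : ∀ (k s T i l s' T' : ℕ) (h : τ.ms k + s = s') (hT : τ.mT k + T = T'),
    τ.reg s T = true → τ.reg s' T' = true → τ.mul k s T i l < 3 →
    ∀ z : Co s T, IsZ z → co s T z = Pi.single i 1 →
      co s' T' (cupT h hT (mu k) z) l = (τ.mul k s T i l : ℕ)
  bok : ∀ (s T i l : ℕ), τ.reg s T = true → τ.reg (s + 1) T = true → τ.bok s T i l < 3 →
    ∀ (z : Co s T) (y : Co (s + 1) T), Cob.d s z.1 = (3 : ℤ) • y.1 → co s T z = Pi.single i 1 →
      co (s + 1) T y l = (τ.bok s T i l : ℕ)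
  lead : ∀ j : ℕ, j ≤ 3 → τ.reg 2 (3 ^ (j + 1)) = true ∧ ∃ ε : ZMod 3, ε ≠ 0 ∧
    ∀ y : Co 2 (3 ^ (j + 1)), IsZ y → ∃ e : CobP 3 1, fP 3 2 y.1 =
      (ε * co 2 (3 ^ (j + 1)) y (τ.lead j)) • Vale.Agent.P257.H134.bP 3 1 j + dP 1 e

/-- `b_j` is not a coboundary (task BNE). -/
def BNe (j : ℕ) : Prop := ¬ ∃ e : CobP 3 1, dP 1 e = Vale.Agent.P257.H134.bP 3 1 j

/-- `x` reduces to `± b_j`. -/
def Lead (j : ℕ) (x : Co 2 (3 ^ (j + 1))) : Prop :=
  ∃ (ε : ZMod 3) (e : CobP 3 1), ε ≠ 0 ∧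
    fP 3 2 x.1 = ε • Vale.Agent.P257.H134.bP 3 1 j + dP 1 e

variable {T : Type u} [Category.{v} T] [Preadditive T] [HasZeroObject T]
    [HasShift T ℤ] [∀ n : ℤ, (shiftFunctor T n).Additive] [Pretriangulated T]
    [MonoidalCategory T] [SymmetricCategory T] [TensorTriangulated T] [HasCoproducts.{0} T]
    (D : MUData T) (U : UnitCof D.R) {V : T} (i : 𝟙_ T ⟶ V)

/-- Output of the engine for `V = S / 3`, enough for an element of order dividing `9`. -/
def EngOut (j : ℕ) : Prop :=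
  (∃ (x : Co 1 (3 ^ (j + 1))) (x₂ : Co 2 (3 ^ (j + 1))) (z : Co 5 (3 ^ (j + 1) + 1))
    (y : Co 6 (3 ^ (j + 1) + 1)), Cob.d 1 x.1 = (3 : ℤ) • x₂.1 ∧ Cob.d 5 z.1 = (3 : ℤ) • y.1 ∧
      Dif D U i x y ∧ Perm D U i z ∧ Lead j x₂) ∧
  ∀ (s W : ℕ) (y : Co s W), 10 ≤ s → 4 * W + 2 = 4 * 3 ^ (j + 1) + s → Perm D U i y → Bd D U i 5 y

/-- Output of the engine for `V = S / 3`, enough for an element of order `3`. -/
def EngOut3 (j : ℕ) : Prop :=
  ∃ (x : Co 1 (3 ^ (j + 1))) (x₂ : Co 2 (3 ^ (j + 1))),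
    Cob.d 1 x.1 = (3 : ℤ) • x₂.1 ∧ Perm D U i x ∧ Lead j x₂

/-- Output of the engine for `V = S / 3` and `j = 1`. -/
def EngOut1 : Prop := ∀ x : Co 2 9, IsZ x → Perm D U i x → IsB x

end Vale.Agent.P236K
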